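import Crest.Agent.N325.Ip.Bar
import Crest.Agent.N325.Ip.Impl

-- ▼ part N325/Ip/Round
section

/-!
# Row 325, Ip (B): the rounded lengths and gradients (helper12)
-/

set_option autoImplicit false
open Finset

namespace Crest.Agent.N325.Ip

open Crest.Agent.N325.Tw Crest.Agent.N325.Ipm

variable {P : Pm} {B : Bn} {th ψ er κ e : ℕ} {A : Arc} {x r : ℤ}

theorem wI_real (hD : 1 ≤ P.D) (G c : ℕ) {y : ℤ} (hy : 0 < y) :
    (wI P G c y.toNat : ℝ) ≤ G * (c * wt (σ0 P) ((y : ℝ) / P.D)) ∧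
      G * (c * wt (σ0 P) ((y : ℝ) / P.D)) < wI P G c y.toNat + 1 := by
  obtain ⟨s, rfl⟩ := Int.eq_ofNat_of_zero_le hy.le
  have hs : (0 : ℝ) < s := by exact_mod_cast hy
  have hD' : (0 : ℝ) < P.D := by exact_mod_cast hD
  have fl : ∀ a b : ℕ, ((a / b : ℕ) : ℝ) ≤ (a : ℝ) / b ∧ (a : ℝ) / b < (a / b : ℕ) + 1 := by
    intro a b
    rw [← Nat.floor_div_eq_div (K := ℝ)]
    exact ⟨Nat.floor_le (by positivity), Nat.lt_floor_add_one _⟩
  rw [Int.toNat_natCast, Int.cast_natCast, wI]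
  split_ifs with h
  · have : σ0 P ≤ (s : ℝ) / P.D := div_le_div_of_nonneg_right (by exact_mod_cast h) hD'.le
    rw [wt_of_le this, show (G : ℝ) * (c * (1 / ((s : ℝ) / P.D))) = ((G * c * P.D : ℕ) : ℝ) / s by
      push_cast; field_simp]
    exact fl _ _
  · have : (s : ℝ) / P.D < σ0 P :=
      div_lt_div_of_pos_right (by exact_mod_cast not_le.1 h) hD'
    rw [wt_of_lt this, show (G : ℝ) * (c * (σ0 P / ((s : ℝ) / P.D) ^ 2))
        = ((G * c * P.s0 * P.D : ℕ) : ℝ) / ((s * s : ℕ) : ℝ) by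
      unfold σ0; push_cast; field_simp]
    exact fl _ _

theorem wI_mul_le (h : Num P B th ψ er κ) (G c : ℕ) {y : ℤ} (hy : (B.sm : ℤ) ≤ y) :
    wI P G c y.toNat * (B.sm * B.sm) ≤ G * c * P.s0 * P.D := by
  have h1 : B.sm ≤ y.toNat := by omega
  have h2 : B.sm ≤ P.s0 := le_trans (Nat.le_mul_of_pos_right _ (Nat.succ_pos _)) h.sm
  unfold wI
  split_ifs with k
  · calc _ ≤ G * c * P.D / y.toNat * (y.toNat * P.s0) :=
          Nat.mul_le_mul_left _ (Nat.mul_le_mul h1 h2)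
      _ = G * c * P.D / y.toNat * y.toNat * P.s0 := by ring
      _ ≤ G * c * P.D * P.s0 := Nat.mul_le_mul_right _ (Nat.div_mul_le_self _ _)
      _ = _ := by ring
  · exact (Nat.mul_le_mul_left _ (Nat.mul_le_mul h1 h1)).trans (Nat.div_mul_le_self _ _)

theorem wI_sum_le (h : Num P B th ψ er κ) (hA : B.arc e A) (hx : Dom B A x) (G : ℕ) :
    wI P G A.c1 (x + A.o1).toNat + wI P G A.c2 (x + A.o2).toNat + wI P G A.c3 (A.o3 - x).toNat
      ≤ G * B.cb * P.s0 * P.D / (B.sm * B.sm) := by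
  obtain ⟨-, -, -, -, -, -, a7, a8, -⟩ := hA
  have k1 := wI_mul_le h G A.c1 hx.1
  have k2 := wI_mul_le h G A.c2 (y := x + A.o2) (by have := hx.1; omega)
  have k3 := wI_mul_le h G A.c3 hx.2
  rw [Nat.le_div_iff_mul_le (Nat.mul_pos h.sm1 h.sm1), add_mul, add_mul]
  calc _ ≤ G * (A.c1 + A.c2 + A.c3) * P.s0 * P.D := by
        rw [mul_add, mul_add, add_mul, add_mul, add_mul, add_mul]; omega
    _ ≤ _ := Nat.mul_le_mul_right _ (Nat.mul_le_mul_right _ (Nat.mul_le_mul_left _ a7))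

theorem wI_slacks (h : Num P B th ψ er κ) (hA : B.arc e A) (hx : Dom B A x) (G : ℕ) :
    ((wI P G A.c1 (x + A.o1).toNat : ℝ) ≤ G * (A.c1 * wt (σ0 P) (s1 P A x)) ∧
      G * (A.c1 * wt (σ0 P) (s1 P A x)) < wI P G A.c1 (x + A.o1).toNat + 1) ∧
    ((wI P G A.c2 (x + A.o2).toNat : ℝ) ≤ G * (A.c2 * wt (σ0 P) (s2 P A x)) ∧
      G * (A.c2 * wt (σ0 P) (s2 P A x)) < wI P G A.c2 (x + A.o2).toNat + 1) ∧
    ((wI P G A.c3 (A.o3 - x).toNat : ℝ) ≤ G * (A.c3 * wt (σ0 P) (s3 P A x)) ∧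
      G * (A.c3 * wt (σ0 P) (s3 P A x)) < wI P G A.c3 (A.o3 - x).toNat + 1) := by
  have := h.sm1; have := hx.1; have := hx.2; have := hA.2.2.2.2.2.2.2.1
  have k1 := wI_real h.D G A.c1 (y := x + A.o1) (by omega)
  have k2 := wI_real h.D G A.c2 (y := x + A.o2) (by omega)
  have k3 := wI_real h.D G A.c3 (y := A.o3 - x) (by omega)
  push_cast at k1 k2 k3
  exact ⟨k1, k2, k3⟩

theorem hundred_le (h : Num P B th ψ er κ) (hA : B.arc e A) (hx : Dom B A x) :
    100 ≤ P.Gl * ln P A x := by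
  have := h.sm1; have := hx.1; have := hx.2
  have k := (ln_pos h.D hA (x := x) (by omega) (by omega)).1
  have hM : (0 : ℝ) < B.Mu := by exact_mod_cast h.s0_pos.trans h.s0
  have g : (100 : ℝ) * B.Mu ≤ P.Gl * P.D := by exact_mod_cast h.Gl
  refine le_trans ?_ (mul_le_mul_of_nonneg_left k (Nat.cast_nonneg _))
  rw [← mul_div_assoc, le_div_iff₀ hM]; exact g

theorem lI_spec (h : Num P B th ψ er κ) (hA : B.arc e A) (hx : Dom B A x) :
    P.Gl * ln P A x ≤ lI P A x ∧ (lI P A x : ℝ) ≤ 103 / 100 * (P.Gl * ln P A x) ∧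
      1 ≤ lI P A x ∧ lI P A x ≤ lbI P B := by
  obtain ⟨⟨a1, b1⟩, ⟨a2, b2⟩, a3, b3⟩ := wI_slacks h hA hx P.Gl
  have k := hundred_le h hA hx
  have s := wI_sum_le h hA hx P.Gl
  refine ⟨?_, ?_, by unfold lI; omega, by unfold lI lbI; omega⟩
  · unfold lI ln; push_cast; linarith
  · unfold ln at k; unfold lI ln; push_cast; linarith

theorem gI_spec (h : Num P B th ψ er κ) (hA : B.arc e A) (hx : Dom B A x) :
    |(gI P A x : ℝ) - P.Gg * gr P A x| ≤ 2 / 100 * (P.Gl * ln P A x) ∧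
      (gI P A x).natAbs ≤ gbI P B := by
  obtain ⟨⟨a1, b1⟩, ⟨a2, b2⟩, a3, b3⟩ := wI_slacks h hA hx P.Gg
  have k := hundred_le h hA hx
  have s := wI_sum_le h hA hx P.Gg
  refine ⟨le_trans (b := 2) ?_ (by linarith), ?_⟩
  · unfold gI gr; push_cast; rw [abs_le]; constructor <;> linarith
  · have := Nat.mul_le_mul_left P.Gg hA.2.2.2.1
    unfold gI gbI; omega

theorem near_of_int (h : Num P B th ψ er κ) (hA : B.arc e A) (hr : Dom B A r)
    (hx : (x - r).natAbs * lI P A r ≤ er + P.thr) : Near P A (ψ / (4000 * th)) x r := by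
  have l1 := (lI_spec h hA hr).1
  have k := hundred_le h hA hr
  have hth : (0 : ℝ) < th := by exact_mod_cast h.ψ1.trans h.ψth
  have hD : (0 : ℝ) < P.D := by exact_mod_cast h.D
  have hGl : (0 : ℝ) < P.Gl := by
    rcases (Nat.cast_nonneg (α := ℝ) P.Gl).eq_or_lt with e | e
    · rw [← e] at k; linarith
    · exact e
  have e1 : |(x : ℝ) - r| * lI P A r ≤ er + P.thr := by
    have : (((x - r).natAbs * lI P A r : ℕ) : ℝ) ≤ ((er + P.thr : ℕ) : ℝ) := by exact_mod_cast hx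
    simpa using this
  have e2 : (4000 : ℝ) * th * (er + P.thr) ≤ P.D * P.Gl * ψ := by exact_mod_cast h.er
  have e3 := (mul_le_mul_of_nonneg_left l1 (abs_nonneg ((x : ℝ) - r))).trans e1
  unfold Near
  rw [div_mul_eq_mul_div, div_le_div_iff₀ hD (by positivity)]
  refine le_of_mul_le_mul_right ?_ hGl
  nlinarith

end Crest.Agent.N325.Ip
end

-- ▼ part N325/Ip/Drop
section

/-!
# Row 325, Ip (C): flatness gives quiescence, a good step lowers the potential (helper12)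
-/

set_option autoImplicit false
open Finset

namespace Crest.Agent.N325.Ip

open Crest.Agent.N325.Tw Crest.Agent.N325.Ipm

variable {P : Pm} {B : Bn} {th ψ er κ e : ℕ} {A : Arc} {x r : ℤ}

/-- the graph of the tower is the rounded network at the reference flows -/
def Link (P : Pm) (B : Bn) (er : ℕ) (N : Net) (rf : ℕ → ℤ) (G : Gr) : Prop :=
  G.E = N.E ∧ ∀ e ∈ N.E, B.arc e (N.arc e) ∧ Dom B (N.arc e) (N.X e) ∧ Dom B (N.arc e) (rf e) ∧
    G.ed e = edI P (N.arc e) (rf e) ∧ (N.X e - rf e).natAbs * lI P (N.arc e) (rf e) ≤ er + P.thr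

theorem Num.Gl_pos (h : Num P B th ψ er κ) : 1 ≤ P.Gl := by
  have h1 := h.Gl; have := h.s0; have := h.s0_pos
  rcases Nat.eq_zero_or_pos P.Gl with k | k
  · rw [k, zero_mul] at h1; omega
  · exact k

theorem Num.dom_pos (h : Num P B th ψ er κ) (d : Dom B A x) : 0 < x + A.o1 ∧ 0 < A.o3 - x := by
  have := h.sm1; have := d.1; have := d.2; omega

/-- the local comparison between the true arc and the rounded edge -/
theorem Num.cmp (h : Num P B th ψ er κ) (hA : B.arc e A) (hr : Dom B A r)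
    (hx : (x - r).natAbs * lI P A r ≤ er + P.thr) :
    0 < ln P A r ∧ P.Gl * ln P A r ≤ lI P A r ∧ (lI P A r : ℝ) ≤ 103 / 100 * (P.Gl * ln P A r) ∧
      |ln P A x - ln P A r| ≤ ln P A r / 1000 ∧
      |gr P A x - gI P A r / P.Gg| ≤ 3 / 2000 * (ψ / th) * ln P A r := by
  obtain ⟨r1, r3⟩ := h.dom_pos hr
  have hth : (1 : ℝ) ≤ th := by exact_mod_cast h.ψ1.trans h.ψth
  have hψ : (1 : ℝ) ≤ ψ := by exact_mod_cast h.ψ1
  have hψth : (ψ : ℝ) ≤ th := by exact_mod_cast h.ψth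
  have hGl : (1 : ℝ) ≤ P.Gl := by exact_mod_cast h.Gl_pos
  have hq : (ψ : ℝ) / th ≤ 1 := by rw [div_le_one (by positivity)]; exact hψth
  have hq0 : (1 : ℝ) / th ≤ ψ / th := div_le_div_of_nonneg_right hψ (by positivity)
  have he : (ψ : ℝ) / (4000 * th) = ψ / th / 4000 := by field_simp
  have hl := (ln_pos h.D hA r1 r3).2
  obtain ⟨s1, s2⟩ := (near_of_int h hA hr hx).stab h.D hA r1 r3 (by rw [he]; linarith)
  obtain ⟨l1, l2, -, -⟩ := lI_spec h hA hr
  have g1 := (gI_spec h hA hr).1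
  rw [he] at s1 s2
  refine ⟨hl, l1, l2, s2.trans (by nlinarith), ?_⟩
  have hGg : (P.Gg : ℝ) = 40 * th * P.Gl := by rw [h.Gg]; push_cast; ring
  have g2 : |gr P A r - gI P A r / P.Gg| ≤ 1 / th / 2000 * ln P A r := by
    have : gr P A r - gI P A r / P.Gg = -((gI P A r - P.Gg * gr P A r) / P.Gg) := by
      rw [hGg]; field_simp; ring
    rw [this, abs_neg, abs_div, abs_of_pos (show (0 : ℝ) < P.Gg by rw [hGg]; positivity),
      div_le_iff₀ (by rw [hGg]; positivity)]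
    refine g1.trans (le_of_eq ?_)
    rw [hGg]; field_simp; ring
  calc _ ≤ |gr P A x - gr P A r| + |gr P A r - gI P A r / P.Gg| := abs_sub_le _ _ _
    _ ≤ _ := by nlinarith

theorem Link.quiet {N : Net} {rf : ℕ → ℤ} {G : Gr} (h : Num P B th ψ er κ)
    (L : Link P B er N rf G) (hF : Flat G th) : Quiet P N := by
  obtain ⟨z, hz⟩ := hF
  have hth : (1 : ℝ) ≤ th := by exact_mod_cast h.ψ1.trans h.ψth
  have hψth : (ψ : ℝ) ≤ th := by exact_mod_cast h.ψth
  have hGl : (1 : ℝ) ≤ P.Gl := by exact_mod_cast h.Gl_pos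
  have hq : (ψ : ℝ) / th ≤ 1 := by rw [div_le_one (by positivity)]; exact hψth
  have hGg : (P.Gg : ℝ) = 40 * th * P.Gl := by rw [h.Gg]; push_cast; ring
  have hGg0 : (0 : ℝ) < P.Gg := by rw [hGg]; positivity
  refine ⟨fun v => z v / P.Gg, fun e he => ?_⟩
  obtain ⟨a1, -, a3, a4, a5⟩ := L.2 e he
  obtain ⟨c0, -, c2, c3, c4⟩ := h.cmp a1 a3 a5
  have k := hz e (L.1 ▸ he)
  rw [a4] at k
  simp only [edI] at k
  have k2 : |(gI P (N.arc e) (rf e) : ℝ) / P.Gg - (z (N.arc e).b / P.Gg - z (N.arc e).a / P.Gg)|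
      ≤ 103 / 4000 * ln P (N.arc e) (rf e) := by
    rw [← sub_div, ← sub_div, abs_div, abs_of_pos hGg0, div_le_iff₀ hGg0]
    refine k.trans ((mul_le_mul_of_nonneg_left c2 (by positivity)).trans (le_of_eq ?_))
    rw [hGg]; ring
  have k3 := (abs_le.1 c3).1
  calc _ ≤ |gr P (N.arc e) (N.X e) - gI P (N.arc e) (rf e) / P.Gg|
        + |(gI P (N.arc e) (rf e) : ℝ) / P.Gg - (z (N.arc e).b / P.Gg - z (N.arc e).a / P.Gg)| :=
        abs_sub_le _ _ _
    _ ≤ _ := by nlinarith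

theorem pot_nonneg {N : Net} (h : Num P B th ψ er κ)
    (hN : ∀ e ∈ N.E, B.arc e (N.arc e) ∧ Dom B (N.arc e) (N.X e)) : 0 ≤ pot P B N :=
  sum_nonneg fun e he => bar_nonneg h.D h.s0_pos (hN e he).1 (h.dom_pos (hN e he).2).1
    (h.dom_pos (hN e he).2).2

theorem Link.drop {N : Net} {rf c : ℕ → ℤ} {G : Gr} (h : Num P B th ψ er κ)
    (L : Link P B er N rf G) (hp : pot P B N ≤ B.F) (hG : Good ψ κ G c) :
    N.Circ c ∧ (∀ e ∈ N.E, Dom B (N.arc e) (N.X e + c e)) ∧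
      pot P B (N.add c) + (ψ : ℝ) ^ 2 / (10 ^ 6 * th ^ 2) ≤ pot P B N := by
  obtain ⟨g1, g2, g3⟩ := hG
  rw [L.1] at g2 g3
  have hth : (1 : ℝ) ≤ th := by exact_mod_cast h.ψ1.trans h.ψth
  have hψ : (1 : ℝ) ≤ ψ := by exact_mod_cast h.ψ1
  have hψth : (ψ : ℝ) ≤ th := by exact_mod_cast h.ψth
  have hGl : (1 : ℝ) ≤ P.Gl := by exact_mod_cast h.Gl_pos
  have hD : (1 : ℝ) ≤ P.D := by exact_mod_cast h.D
  have hGg : (P.Gg : ℝ) = 40 * th * P.Gl := by rw [h.Gg]; push_cast; ring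
  set q : ℝ := ψ / th with hq
  have hq1 : q ≤ 1 := by rw [hq, div_le_one (by positivity)]; exact hψth
  have hq0 : 0 < q := by positivity
  set K : ℝ := κ / (P.D * P.Gl) with hK
  have hK1 : K ≤ q / 4000 := by
    have : (4000 : ℝ) * th * κ ≤ P.D * P.Gl * ψ := by exact_mod_cast h.κ1
    rw [hK, hq, div_div, div_le_div_iff₀ (by positivity) (by positivity)]; linarith
  have hK2 : q / 8000 ≤ K := by
    have : (P.D : ℝ) * P.Gl * ψ ≤ 8000 * th * κ := by exact_mod_cast h.κ2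
    rw [hK, hq, div_div, div_le_div_iff₀ (by positivity) (by positivity)]; linarith
  -- weighted size with the reference lengths
  set u : ℕ → ℝ := fun e => |(c e : ℝ)| / P.D * ln P (N.arc e) (rf e) with hu
  set t : ℕ → ℝ := fun e => |(c e : ℝ)| / P.D * ln P (N.arc e) (N.X e) with ht
  have cmp := fun e (he : e ∈ N.E) => h.cmp (L.2 e he).1 (L.2 e he).2.2.1 (L.2 e he).2.2.2.2
  have su : ∑ e ∈ N.E, u e ≤ K := by
    have g2' : ∑ e ∈ N.E, |(c e : ℝ)| * (lI P (N.arc e) (rf e) : ℝ) ≤ κ := by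
      have : ((∑ e ∈ N.E, (c e).natAbs * (G.ed e).l : ℕ) : ℝ) ≤ κ := by exact_mod_cast g2
      rw [Nat.cast_sum] at this
      refine le_trans (le_of_eq (sum_congr rfl fun e he => ?_)) this
      rw [(L.2 e he).2.2.2.1]
      simp [edI]
    rw [hK, le_div_iff₀ (by positivity), sum_mul]
    refine le_trans (sum_le_sum fun e he => ?_) g2'
    have := mul_le_mul_of_nonneg_left (cmp e he).2.1 (abs_nonneg (c e : ℝ))
    refine le_trans (le_of_eq ?_) this
    simp only [hu]; field_simp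
  have tu : ∀ e ∈ N.E, 0 ≤ t e ∧ t e ≤ 1001 / 1000 * u e := fun e he => by
    obtain ⟨c0, -, -, c3, -⟩ := cmp e he
    obtain ⟨k1, k2⟩ := abs_le.1 c3
    have w : 0 ≤ |(c e : ℝ)| / P.D := by positivity
    simp only [ht, hu]
    constructor <;> nlinarith
  have st : ∑ e ∈ N.E, t e ≤ 1001 / 1000 * K := by
    refine (sum_le_sum fun e he => (tu e he).2).trans ?_
    rw [← mul_sum]; linarith
  have te : ∀ e ∈ N.E, t e ≤ 1001 / 1000 * K := fun e he =>
    (single_le_sum (fun e he => (tu e he).1) he).trans st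
  have bs := fun e (he : e ∈ N.E) => bar_step (c := c e) h.D h.s0_pos (L.2 e he).1
    (h.dom_pos (L.2 e he).2.1).1 (h.dom_pos (L.2 e he).2.1).2 ((te e he).trans (by linarith))
  -- the linear term
  have lin : ∑ e ∈ N.E, (gI P (N.arc e) (rf e) : ℝ) / P.Gg * (c e / P.D) ≤ -(q * K / 80) := by
    have : ((2 * ∑ e ∈ N.E, c e * (G.ed e).g + ψ * κ : ℤ) : ℝ) ≤ 0 := by exact_mod_cast g3
    push_cast at this
    have e1 : ∑ e ∈ N.E, (gI P (N.arc e) (rf e) : ℝ) / P.Gg * (c e / P.D)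
        = (∑ e ∈ N.E, (c e : ℝ) * (G.ed e).g) / (P.Gg * P.D) := by
      rw [sum_div]
      refine sum_congr rfl fun e he => ?_
      rw [(L.2 e he).2.2.2.1]
      simp only [edI]; rw [hGg]; field_simp
    have e2 : -(q * K / 80) = -(ψ * κ / 2) / (P.Gg * P.D) := by
      rw [hq, hK, hGg]; field_simp; ring
    rw [e1, e2]
    exact div_le_div_of_nonneg_right (by linarith) (by rw [hGg]; positivity)
  have key : pot P B (N.add c) ≤ pot P B N - q * K / 80 + 3 / 2000 * q * K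
      + 4 * (1001 / 1000 * K) ^ 2 := by
    have e1 : ∀ e ∈ N.E, bar P B (N.arc e) (N.X e + c e) ≤ bar P B (N.arc e) (N.X e)
        + (gI P (N.arc e) (rf e) : ℝ) / P.Gg * (c e / P.D) + 3 / 2000 * q * u e
        + 4 * (1001 / 1000 * K) * t e := fun e he => by
      have b := (bs e he).2.2
      have c4 := (cmp e he).2.2.2.2
      have d1 : (gr P (N.arc e) (N.X e) - gI P (N.arc e) (rf e) / P.Gg) * (c e / P.D)
          ≤ 3 / 2000 * q * u e := by
        refine (le_abs_self _).trans ?_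
        rw [abs_mul, abs_div (c e : ℝ), abs_of_pos (show (0 : ℝ) < P.D by positivity)]
        refine (mul_le_mul_of_nonneg_right c4 (by positivity)).trans (le_of_eq ?_)
        simp only [hu]; ring
      have d2 : t e ^ 2 ≤ 1001 / 1000 * K * t e := by
        rw [sq]; exact mul_le_mul_of_nonneg_right (te e he) (tu e he).1
      change _ ≤ _ + _ + 4 * t e ^ 2 at b
      linarith
    have e2 := sum_le_sum e1
    simp only [sum_add_distrib, ← mul_sum] at e2
    have hK0 : 0 ≤ K := by positivity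
    have e3 : 3 / 2000 * q * ∑ e ∈ N.E, u e ≤ 3 / 2000 * q * K :=
      mul_le_mul_of_nonneg_left su (by positivity)
    have e4 : 4 * (1001 / 1000 * K) * ∑ e ∈ N.E, t e ≤ 4 * (1001 / 1000 * K) * (1001 / 1000 * K) :=
      mul_le_mul_of_nonneg_left st (by positivity)
    unfold pot
    simp only [Net.add]
    nlinarith
  have fin : pot P B (N.add c) + (ψ : ℝ) ^ 2 / (10 ^ 6 * th ^ 2) ≤ pot P B N := by
    have : (ψ : ℝ) ^ 2 / (10 ^ 6 * th ^ 2) = q ^ 2 / 10 ^ 6 := by rw [hq]; field_simp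
    rw [this]
    nlinarith
  refine ⟨fun z => ?_, fun e he => ?_, fin⟩
  · rw [← g1 z, L.1]
    refine sum_congr rfl fun e he => ?_
    rw [dz, (L.2 e he).2.2.2.1]; rfl
  · refine dom_of_bar_le h (L.2 e he).1 (bs e he).1 (bs e he).2.1 ?_
    have p1 : bar P B (N.arc e) (N.X e + c e) ≤ pot P B (N.add c) :=
      single_le_sum (f := fun e => bar P B (N.arc e) (N.X e + c e))
        (fun e he => bar_nonneg h.D h.s0_pos (L.2 e he).1 (bs e he).1 (bs e he).2.1) he
    have : 0 ≤ (ψ : ℝ) ^ 2 / (10 ^ 6 * th ^ 2) := by positivity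
    linarith

end Crest.Agent.N325.Ip
end

-- ▼ part N325/Ip/Inv
section

/-! # Row 325 (helper62): invariant and potential of the primal centre, booking of the reports -/

set_option autoImplicit false
open Finset

namespace Crest.Agent.N325.Ip

open Crest.Agent.N325.Tw Crest.Agent.N325.Ipm

/-- the side conditions on sizes and times -/
structure Tim (g : Gl) (θ : ℕ) (k : TC) (P : Pm) (B : Bn) (c : IC) : Prop where
  θ1 : 1 ≤ θ
  cc : 2 ≤ k.cc
  m : B.m ≤ k.c.m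
  mnb : B.m ≤ k.c.nb
  nb : B.nb ≤ k.c.nb
  lb : lbI P B ≤ k.c.lb
  gb : gbI P B ≤ k.c.gb
  wt : θ * (2 * k.AU + 4 + c.cl) ≤ k.wt * P.thr
  X1 : lbI P B ≤ g.X
  X2 : gbI P B ≤ g.X
  X3 : B.Mu + k.er + k.rp * (B.F + 2 * (k.AU + k.AS) + 10) ≤ g.X
  fu : B.F + k.AU + k.AS + 10 < P.fu
  AR : k.AR + 1 ≤ c.AR
  AU : k.AU + c.cl + 4 ≤ c.AU
  AQ : k.AS + 6 ≤ c.AQ
  AP : (k.AS + 5) * (10 ^ 6 * k.th ^ 2) ≤ c.AP * k.ψ ^ 2

/-- a while loop whose elapsed time is bounded by the invariant -/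
theorem sp_whileT {σ : Type} {g : Gl} {c : σ → Bool} {f : σ → R σ} (I : σ → ℕ → Prop) (Tm : ℕ)
    (hb : ∀ s t, I s t → c s = true → t ≤ Tm)
    (h : ∀ s t, I s t → c s = true → Sp g (f s) fun s' u => I s' (t + 1 + u))
    {n : ℕ} {s : σ} {t : ℕ} (h0 : I s t) (hn : Tm < t + n) :
    Sp g (whileF c f n s) fun s' u => c s' = false ∧ ∃ u', u = u' + 1 ∧ I s' (t + u') := by
  induction n generalizing s t with
  | zero =>
    refine ⟨Nat.zero_le _, ?_, 0, rfl, h0⟩
    by_contra e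
    have := hb s t h0 (by simpa using e)
    omega
  | succ n ih =>
    refine ⟨Nat.zero_le _, ?_⟩
    by_cases e : c s = true
    · rw [if_pos e]
      refine (h s t h0 e).bind fun s' u k => (ih k (by omega)).mono ?_
      rintro s'' _ ⟨a, u', rfl, k'⟩
      exact ⟨a, 1 + u + u', by omega, by convert k' using 1; omega⟩
    · rw [if_neg e]
      exact ⟨Bool.eq_false_iff.2 e, 0, rfl, h0⟩

/-! ## reports -/

@[simp] theorem rsum_nil (e : ℕ) : rsum [] e = 0 := rfl

theorem rsum_cons (x : ℕ × ℤ) (r : Rep) (e : ℕ) :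
    rsum (x :: r) e = (if x.1 = e then x.2 else 0) + rsum r e := by
  simp [rsum]

theorem rsum_eq_zero {r : Rep} {e : ℕ} (h : e ∉ r.map Prod.fst) : rsum r e = 0 := by
  induction r with
  | nil => rfl
  | cons x r ih =>
    rw [List.map_cons, List.mem_cons, not_or] at h
    rw [rsum_cons, ih h.2, if_neg (Ne.symm h.1), add_zero]

/-- total size of the reports -/
def rabs (r : Rep) : ℕ := (r.map fun x => x.2.natAbs).sum

theorem rabs_le {E : Finset ℕ} {D : ℕ} {r : Rep} (h : RepOk E D r) : rabs r ≤ D * r.length := by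
  induction r with
  | nil => simp [rabs]
  | cons x r ih =>
    have h1 := (h x (List.mem_cons_self)).2
    have h2 := ih fun y hy => h y (List.mem_cons_of_mem _ hy)
    simp only [rabs, List.map_cons, List.sum_cons, List.length_cons] at h2 ⊢
    rw [Nat.mul_succ]; omega

theorem sp_app {g : Gl} (r : Rep) (kn : Arr ℤ) (C : List ℕ)
    (h : ∀ x ∈ r, (kn.get x.1).natAbs + rabs r ≤ g.X) :
    Sp g (foldL app1 r (kn, C)) fun u t => (∀ e, u.1.get e = kn.get e + rsum r e) ∧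
      (∀ e, e ∈ u.2 ↔ e ∈ r.map Prod.fst ∨ e ∈ C) ∧ u.2.length = r.length + C.length ∧
      t = r.length + 1 := by
  induction r generalizing kn C with
  | nil => exact ⟨Nat.zero_le _, by simp, by simp, by simp, rfl⟩
  | cons x r ih =>
    refine ⟨Nat.zero_le _, ?_⟩
    have hx := h x List.mem_cons_self
    have e0 : rabs (x :: r) = x.2.natAbs + rabs r := by simp [rabs]
    simp only [app1, sp_bind, sp_int, sp_pure]
    refine ⟨by omega, (ih (kn.set x.1 (kn.get x.1 + x.2)) (x.1 :: C) ?_).mono ?_⟩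
    · intro y hy
      have hy' := h y (List.mem_cons_of_mem _ hy)
      rw [Arr.get_set]
      split_ifs <;> omega
    · rintro u t ⟨h1, h2, h3, h4⟩
      refine ⟨fun e => ?_, fun e => ?_, by simp only [h3, List.length_cons]; omega,
        by simp only [h4, List.length_cons]; omega⟩
      · rw [h1, rsum_cons, Arr.get_set]
        by_cases he : e = x.1
        · subst he; simp [add_assoc]
        · rw [if_neg he, if_neg (Ne.symm he), zero_add]
      · rw [h2]; simp only [List.mem_cons, List.map_cons]; tauto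

/-- weighted distance of the known flows from the reference flows -/
def dev (m : ℕ) (kn rf : ℕ → ℤ) (l : ℕ → ℕ) : ℕ := ∑ e ∈ range m, (kn e - rf e).natAbs * l e

theorem dev_rsum (m : ℕ) (kn rf : ℕ → ℤ) (l : ℕ → ℕ) (r : Rep) :
    dev m (fun e => kn e + rsum r e) rf l ≤
      dev m kn rf l + (r.map fun x => x.2.natAbs * l x.1).sum := by
  induction r with
  | nil => simp [dev]
  | cons x r ih =>
    rw [List.map_cons, List.sum_cons]
    have h1 : dev m (fun e => kn e + rsum (x :: r) e) rf l ≤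
        dev m (fun e => kn e + rsum r e) rf l +
          ∑ e ∈ range m, if x.1 = e then x.2.natAbs * l x.1 else 0 := by
      unfold dev
      rw [← sum_add_distrib]
      refine sum_le_sum fun e _ => ?_
      beta_reduce
      rw [rsum_cons]
      split_ifs with he
      · subst he
        rw [← add_mul]
        exact Nat.mul_le_mul_right _ (by omega)
      · simp
    have h2 : (∑ e ∈ range m, if x.1 = e then x.2.natAbs * l x.1 else 0) ≤ x.2.natAbs * l x.1 := by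
      rw [sum_ite_eq]; split_ifs <;> omega
    omega

theorem dev_erase {m e : ℕ} (he : e < m) (kn rf : ℕ → ℤ) (l : ℕ → ℕ) :
    dev m kn rf (Function.update l e 0) + (kn e - rf e).natAbs * l e = dev m kn rf l := by
  unfold dev
  rw [← sum_erase_add _ _ (mem_range.2 he), ← sum_erase_add _ _ (mem_range.2 he)]
  simp only [Function.update_self, mul_zero, add_zero]
  congr 1
  exact sum_congr rfl fun e' h => by rw [Function.update_of_ne (ne_of_mem_erase h)]

theorem dev_insert {m e : ℕ} (kn rf : ℕ → ℤ) {l : ℕ → ℕ} (hl : l e = 0) (x : ℤ) (a : ℕ) :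
    dev m (Function.update kn e x) (Function.update rf e x) (Function.update l e a) =
      dev m kn rf l := by
  unfold dev
  refine sum_congr rfl fun e' _ => ?_
  by_cases h : e' = e
  · subst h; simp [hl]
  · simp [Function.update_of_ne h]

theorem sum_le_rw {ed : ℕ → Ed} {l : ℕ → ℕ} {r : Rep} (h : ∀ x ∈ r, l x.1 ≤ (ed x.1).l) :
    (r.map fun x => x.2.natAbs * l x.1).sum ≤ rw ed r :=
  List.sum_le_sum fun x hx => Nat.mul_le_mul_left _ (h x hx)

/-! ## invariant -/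

section inv
variable {T : Type} (It : T → Gr → (ℕ → ℤ) → Prop) (Ψ : T → ℕ) (k : TC) (P : Pm) (B : Bn)

/-- the facts on one arc; `C` = the arcs that wait for a check -/
structure ArcOk (s : St T) (C : List ℕ) (N : Net) (G : Gr) (f : ℕ → ℤ) (e : ℕ) : Prop where
  arc : s.arc.get e = N.arc e
  bd : B.arc e (N.arc e)
  dx : Dom B (N.arc e) (N.X e)
  dr : Dom B (N.arc e) (s.rf.get e)
  ed : G.ed e = edI P (N.arc e) (s.rf.get e)
  ll : s.ll.get e = lI P (N.arc e) (s.rf.get e)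
  val : N.X e = s.kn.get e + f e
  chk : e ∉ C → (s.kn.get e - s.rf.get e).natAbs * s.ll.get e ≤ P.thr

/-- the working invariant -/
structure Core (s : St T) (C : List ℕ) (N : Net) (G : Gr) (f : ℕ → ℤ) : Prop where
  tw : It s.tw G f
  E : G.E = N.E
  EU : G.E ⊆ G.U
  U : G.U ⊆ range B.m
  ok : ∀ e ∈ N.E, ArcOk P B s C N G f e
  out : ∀ e, e ∉ N.E → s.ll.get e = 0

/-- the working invariant, ghosts hidden -/
def J (s : St T) (C : List ℕ) (N : Net) : Prop := ∃ G f, Core It P B s C N G f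

/-- the potential (times `θ`) -/
def Q (s : St T) : ℕ := Ψ s.tw + k.wt * dev B.m s.kn.get s.rf.get s.ll.get

variable {It Ψ k P B}

theorem J.mono {s : St T} {C C' : List ℕ} {N : Net} (h : J It P B s C N) (hC : ∀ e ∈ C, e ∈ C') :
    J It P B s C' N := by
  obtain ⟨G, f, h⟩ := h
  exact ⟨G, f, h.tw, h.E, h.EU, h.U, fun e he =>
    { h.ok e he with chk := fun hn => (h.ok e he).chk fun hc => hn (hC e hc) }, h.out⟩

theorem Dom.natAbs_le {e : ℕ} {A : Arc} {x : ℤ} (hA : B.arc e A) (h : Dom B A x) :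
    x.natAbs ≤ B.Mu := by
  obtain ⟨-, -, -, -, -, -, -, h1, h2⟩ := hA
  obtain ⟨h3, h4⟩ := h
  omega

variable {g : Gl} {θ th ψ er κ : ℕ} {c : IC}

theorem edI_ok (hN : Num P B th ψ er κ) (hT : Tim g θ k P B c) {e : ℕ} {A : Arc} {x : ℤ}
    (hA : B.arc e A) (hx : Dom B A x) : k.c.ed e (edI P A x) := by
  obtain ⟨-, -, h1, h2⟩ := lI_spec hN hA hx
  have h3 := (gI_spec hN hA hx).2
  have := hT.mnb; have := hT.nb; have := hT.lb; have := hT.gb
  obtain ⟨h4, h5, h6, -⟩ := hA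
  refine ⟨by omega, ?_, ?_, h1, ?_, ?_⟩ <;> simp only [edI] <;> omega

theorem Core.gok (hN : Num P B th ψ er κ) (hT : Tim g θ k P B c) {s : St T} {C : List ℕ} {N : Net}
    {G : Gr} {f : ℕ → ℤ} (h : Core It P B s C N G f) : G.Ok k.c := by
  refine ⟨h.EU, ?_, fun e he => ?_⟩
  · exact ((card_le_card h.U).trans_eq (card_range _)).trans hT.m
  · rw [h.E] at he
    rw [(h.ok e he).ed]
    exact edI_ok hN hT (h.ok e he).bd (h.ok e he).dr

end inv

theorem Net.ins_del {N : Net} {e : ℕ} (he : e ∈ N.E) : (N.del e).ins e (N.arc e) (N.X e) = N := by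
  cases N
  simp only [Net.del, Net.ins, Function.update_eq_self, insert_erase he]

theorem Net.add_add (N : Net) (c c' : ℕ → ℤ) :
    (N.add c).add c' = N.add fun e => c e + c' e := by
  simp only [Net.add, add_assoc]

theorem Net.add_zero (N : Net) : (N.add fun _ => 0) = N := by
  cases N; simp only [Net.add, _root_.add_zero]

theorem Net.Circ.add {N : Net} {c c' : ℕ → ℤ} (h : N.Circ c) (h' : (N.add c).Circ c') :
    N.Circ fun e => c e + c' e := fun z => by
  have h1 := h z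
  have h2 := h' z
  simp only [Net.add] at h2
  simp only [add_mul, sum_add_distrib, h1, h2, _root_.add_zero]

end Crest.Agent.N325.Ip
end

-- ▼ part N325/Ip/Raw
section

/-! # Row 325 (helper62): raw deletion and insertion, the check loop -/

set_option autoImplicit false
open Finset

namespace Crest.Agent.N325.Ip

open Crest.Agent.N325.Tw Crest.Agent.N325.Ipm

variable {T : Type} {g : Gl} {θ κ : ℕ} {run : Cmd × T → R (T × Rep × Bool)} {k : TC}
  {Sh : T → Prop} {It : T → Gr → (ℕ → ℤ) → Prop} {Ψ : T → ℕ} {P : Pm} {B : Bn} {c : IC}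

/-- the bound on the potential inside an operation -/
def F1 (k : TC) (B : Bn) : ℕ := B.F + k.AU + k.AS + 9

theorem Core.kn_le (hS : TowerSpec g θ κ run k Sh It Ψ) (hN : Num P B k.th k.ψ k.er κ)
    {s : St T} {C : List ℕ} {N : Net} {G : Gr} {f : ℕ → ℤ} (h : Core It P B s C N G f) {e : ℕ}
    (he : e ∈ N.E) : (s.kn.get e).natAbs ≤ B.Mu + k.er := by
  have o := h.ok e he
  have h1 := hS.stale h.tw e (h.E ▸ he)
  have h2 := (lI_spec hN o.bd o.dr).2.2.1
  rw [o.ed] at h1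
  have h3 : (f e).natAbs ≤ (f e).natAbs * (edI P (N.arc e) (s.rf.get e)).l :=
    Nat.le_mul_of_pos_right _ h2
  have h4 := o.dx.natAbs_le o.bd
  have h5 := o.val
  omega

theorem rep_len (hT : Tim g θ k P B c) {a n A z : ℕ} (h : θ * k.cc * n + z ≤ a + θ * A)
    (ha : a ≤ θ * F1 k B) : n ≤ F1 k B + A := by
  have h1 : θ * n ≤ θ * k.cc * n := by
    rw [mul_assoc]
    exact Nat.mul_le_mul_left _ (Nat.le_mul_of_pos_left _ (by have := hT.cc; omega))
  have h2 : θ * n ≤ θ * (F1 k B + A) := by rw [mul_add]; omega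
  exact Nat.le_of_mul_le_mul_left h2 hT.θ1

theorem rep_X (hT : Tim g θ k P B c) {E : Finset ℕ} {r : Rep} (hr : RepOk E k.rp r) {A : ℕ}
    (hA : A ≤ k.AU + k.AS) (hn : r.length ≤ F1 k B + A) : B.Mu + k.er + rabs r ≤ g.X := by
  have h1 := rabs_le hr
  have h2 : k.rp * r.length ≤ k.rp * (B.F + 2 * (k.AU + k.AS) + 10) :=
    Nat.mul_le_mul_left _ (by unfold F1 at hn; omega)
  have := hT.X3
  omega

theorem cc_pay (hT : Tim g θ k P B c) (n : ℕ) : θ * n + θ * n ≤ θ * k.cc * n := by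
  have : θ * (2 * n) ≤ θ * (k.cc * n) := Nat.mul_le_mul_left _ (Nat.mul_le_mul_right _ hT.cc)
  rw [mul_assoc]; nlinarith

theorem sp_del0 (hS : TowerSpec g θ κ run k Sh It Ψ) (hN : Num P B k.th k.ψ k.er κ)
    (hT : Tim g θ k P B c) {s : St T} {C : List ℕ} {N : Net} {e : ℕ}
    (h : J It P B s (e :: C) N) (he : e ∈ N.E) (hQ : Q Ψ k B s ≤ θ * F1 k B) :
    Sp g (del0 run s C e) fun u t => J It P B u.1 u.2 (N.del e) ∧ u.1.kn.get e = N.X e ∧
      u.1.arc = s.arc ∧ u.1.rf = s.rf ∧ u.1.log = s.log ∧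
      θ * t + Q Ψ k B u.1 + θ * u.2.length +
        k.wt * ((s.kn.get e - s.rf.get e).natAbs * s.ll.get e) ≤
        Q Ψ k B s + θ * C.length + θ * (k.AU + 2) := by
  obtain ⟨G, f, h⟩ := h
  have gok := h.gok hN hT
  have heG : e ∈ G.E := h.E ▸ he
  have gok' : (G.app (e, none)).Ok k.c :=
    ⟨(erase_subset _ _).trans gok.1, gok.2.1, fun e' h' => gok.2.2 e' (mem_of_mem_erase h')⟩
  simp only [del0, sp_bind, sp_call, sp_pure]
  refine (hS.upd (e, none) h.tw heG gok gok').mono ?_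
  rintro r t ⟨f', i1, i2, i3, i4⟩
  simp only [insert_eq_of_mem heG] at i2 i3
  have hlen : r.2.1.length ≤ F1 k B + k.AU :=
    rep_len hT (a := Ψ s.tw) (z := θ * t + Ψ r.1 + k.wt * rw (G.app (e, none)).ed r.2.1)
      (by omega) (by unfold Q at hQ; omega)
  have hX := rep_X hT i2 (Nat.le_add_right _ _) hlen
  refine (sp_app r.2.1 s.kn C fun x hx => ?_).mono ?_
  · have := h.kn_le hS hN (h.E ▸ (i2 x hx).1)
    omega
  rintro u t' ⟨a1, a2, a3, a4⟩
  have hE' : (G.app (e, none)).E = N.E.erase e := by rw [← h.E]; rfl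
  refine ⟨⟨G.app (e, none), f', i1, hE', gok'.1, h.U, fun e' he' => ?_, fun e' he' => ?_⟩,
    ?_, trivial, trivial, trivial, ?_⟩
  · have hne : e' ≠ e := ne_of_mem_erase he'
    have hm : e' ∈ N.E := mem_of_mem_erase he'
    have o := h.ok e' hm
    have i5 := i3 e' (h.E ▸ hm)
    rw [if_pos (hE' ▸ he'), if_pos (h.E ▸ hm)] at i5
    refine ⟨o.arc, o.bd, o.dx, o.dr, o.ed, ?_, ?_, fun hn => ?_⟩
    · exact (Arr.get_set_ne _ hne _).trans o.ll
    · change N.X e' = u.1.get e' + f' e'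
      rw [a1, o.val]; omega
    · change (u.1.get e' - s.rf.get e').natAbs * (s.ll.set e 0).get e' ≤ _
      rw [a2, not_or] at hn
      rw [a1, rsum_eq_zero hn.1, add_zero, Arr.get_set_ne _ hne]
      exact o.chk (by simp [hne, hn.2])
  · change (s.ll.set e 0).get e' = 0
    rw [Arr.get_set]
    split_ifs with h1
    · rfl
    · exact h.out e' fun hm => he' (mem_erase.2 ⟨h1, hm⟩)
  · have i5 := i3 e heG
    rw [if_neg (by rw [hE']; exact notMem_erase _ _), if_pos heG] at i5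
    change u.1.get e = _
    rw [a1, (h.ok e he).val]; omega
  · have d1 := dev_rsum B.m s.kn.get s.rf.get (Function.update s.ll.get e 0) r.2.1
    have d2 := dev_erase (h.ok e he).bd.1 s.kn.get s.rf.get s.ll.get
    have d3 : (r.2.1.map fun x => x.2.natAbs * Function.update s.ll.get e 0 x.1).sum ≤
        rw (G.app (e, none)).ed r.2.1 := sum_le_rw fun x hx => by
      by_cases h1 : x.1 = e
      · rw [h1, Function.update_self]; exact Nat.zero_le _
      · have o := h.ok x.1 (h.E ▸ (i2 x hx).1)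
        rw [Function.update_of_ne h1, o.ll]
        change _ ≤ (G.ed x.1).l
        rw [o.ed]; exact le_rfl
    have e1 : u.1.get = fun e => s.kn.get e + rsum r.2.1 e := funext a1
    have d4 := Nat.mul_le_mul_left k.wt (show dev B.m u.1.get s.rf.get (s.ll.set e 0).get +
        (s.kn.get e - s.rf.get e).natAbs * s.ll.get e ≤
        dev B.m s.kn.get s.rf.get s.ll.get + rw (G.app (e, none)).ed r.2.1 by
      rw [e1, Arr.set_get]; omega)
    have d5 := cc_pay hT r.2.1.length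
    simp only [Q, a3, a4, mul_add] at d4 ⊢
    omega

theorem sp_ins0 (hS : TowerSpec g θ κ run k Sh It Ψ) (hN : Num P B k.th k.ψ k.er κ)
    (hT : Tim g θ k P B c) {s : St T} {C : List ℕ} {N : Net} {e : ℕ} {A : Arc} {x : ℤ}
    (h : J It P B s C N) (he : e ∉ N.E) (hA : B.arc e A) (hx : Dom B A x)
    (hQ : Q Ψ k B s ≤ θ * F1 k B) :
    Sp g (ins0 run P s C e A x) fun u t => J It P B u.1 u.2 (N.ins e A x) ∧
      u.1.rf = s.rf.set e x ∧ u.1.log = e :: s.log ∧
      θ * t + Q Ψ k B u.1 + θ * u.2.length ≤ Q Ψ k B s + θ * C.length + θ * (k.AU + 2) := by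
  obtain ⟨G, f, h⟩ := h
  have gok := h.gok hN hT
  have heG : e ∉ G.E := h.E ▸ he
  have hU : (G.app (e, some (edI P A x))).U ⊆ range B.m :=
    insert_subset (mem_range.2 hA.1) h.U
  have gok' : (G.app (e, some (edI P A x))).Ok k.c := by
    refine ⟨insert_subset_insert _ gok.1, ((card_le_card hU).trans_eq (card_range _)).trans hT.m,
      fun e' h' => ?_⟩
    change k.c.ed e' (Function.update G.ed e (edI P A x) e')
    by_cases h1 : e' = e
    · rw [h1, Function.update_self]; exact edI_ok hN hT hA hx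
    · rw [Function.update_of_ne h1]
      exact gok.2.2 e' ((mem_insert.1 h').resolve_left h1)
  have l1 := (lI_spec hN hA hx).2.2.2
  have l2 := (gI_spec hN hA hx).2
  simp only [ins0, sp_bind, sp_call, sp_pure, sp_nat, sp_int]
  refine ⟨l1.trans hT.X1, l2.trans hT.X2, (hS.upd (e, some (edI P A x)) h.tw heG gok gok').mono ?_⟩
  rintro r t ⟨f', i1, i2, i3, i4⟩
  have hlen : r.2.1.length ≤ F1 k B + k.AU :=
    rep_len hT (a := Ψ s.tw)
      (z := θ * t + Ψ r.1 + k.wt * rw (G.app (e, some (edI P A x))).ed r.2.1)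
      (by omega) (by unfold Q at hQ; omega)
  have hX := rep_X hT i2 (Nat.le_add_right _ _) hlen
  refine (sp_app r.2.1 (s.kn.set e x) C fun y hy => ?_).mono ?_
  · rw [Arr.get_set]
    split_ifs with h1
    · have := hx.natAbs_le hA
      omega
    · have := h.kn_le hS hN (h.E ▸ (mem_insert.1 (i2 y hy).1).resolve_left h1)
      omega
  rintro u t' ⟨a1, a2, a3, a4⟩
  have hE' : (G.app (e, some (edI P A x))).E = insert e N.E := by rw [← h.E]; rfl
  have hed : (G.app (e, some (edI P A x))).ed = Function.update G.ed e (edI P A x) := rfl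
  refine ⟨⟨G.app (e, some (edI P A x)), f', i1, hE', gok'.1, hU, fun e' he' => ?_,
    fun e' he' => ?_⟩, trivial, trivial, ?_⟩
  · have i5 := i3 e' (h.E ▸ he')
    rw [if_pos (hE' ▸ he')] at i5
    by_cases h1 : e' = e
    · subst h1
      rw [if_neg heG] at i5
      refine ⟨?_, ?_, ?_, ?_, ?_, ?_, ?_, fun hn => ?_⟩ <;>
        simp only [Net.ins, Function.update_self, Arr.get_set_self, hed]
      · exact hA
      · exact hx
      · exact hx
      · rw [a1, Arr.get_set_self]; omega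
      · rw [a2, not_or] at hn
        rw [a1, rsum_eq_zero hn.1, Arr.get_set_self]; simp
    · have hm : e' ∈ N.E := (mem_insert.1 he').resolve_left h1
      have o := h.ok e' hm
      rw [if_pos (h.E ▸ hm)] at i5
      refine ⟨?_, ?_, ?_, ?_, ?_, ?_, ?_, fun hn => ?_⟩ <;>
        simp only [Net.ins, Function.update_of_ne h1, Arr.get_set_ne _ h1, hed]
      · exact o.arc
      · exact o.bd
      · exact o.dx
      · exact o.dr
      · exact o.ed
      · exact o.ll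
      · rw [a1, Arr.get_set_ne _ h1, o.val]; omega
      · rw [a2, not_or] at hn
        rw [a1, rsum_eq_zero hn.1, add_zero, Arr.get_set_ne _ h1]
        exact o.chk hn.2
  · have h1 : e' ≠ e := fun h1 => he' (h1 ▸ mem_insert_self _ _)
    change (s.ll.set e (lI P A x)).get e' = 0
    rw [Arr.get_set_ne _ h1]
    exact h.out e' fun hm => he' (mem_insert_of_mem hm)
  · have d1 := dev_rsum B.m (Function.update s.kn.get e x) (Function.update s.rf.get e x)
      (Function.update s.ll.get e (lI P A x)) r.2.1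
    have d2 := dev_insert (m := B.m) s.kn.get s.rf.get (h.out e he) x (lI P A x)
    have d3 : (r.2.1.map fun y => y.2.natAbs * Function.update s.ll.get e (lI P A x) y.1).sum ≤
        rw (G.app (e, some (edI P A x))).ed r.2.1 := sum_le_rw fun y hy => by
      rw [hed]
      by_cases h1 : y.1 = e
      · rw [h1, Function.update_self, Function.update_self]; exact le_rfl
      · have o := h.ok y.1 (h.E ▸ (mem_insert.1 (i2 y hy).1).resolve_left h1)
        rw [Function.update_of_ne h1, Function.update_of_ne h1, o.ll, o.ed]; exact le_rfl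
    have e1 : u.1.get = fun e' => Function.update s.kn.get e x e' + rsum r.2.1 e' := by
      funext e'; rw [a1, Arr.set_get]
    have d4 := Nat.mul_le_mul_left k.wt (show dev B.m u.1.get (s.rf.set e x).get
        (s.ll.set e (lI P A x)).get ≤
        dev B.m s.kn.get s.rf.get s.ll.get + rw (G.app (e, some (edI P A x))).ed r.2.1 by
      rw [e1, Arr.set_get, Arr.set_get]; omega)
    have d5 := cc_pay hT r.2.1.length
    simp only [Q, a3, a4, mul_add] at d4 ⊢
    omega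

/-- what happened to the log and to the reference flows -/
def Lg (s s' : St T) (N : Net) (new : List ℕ) : Prop :=
  s'.log = new ++ s.log ∧ (∀ e ∈ new, e ∈ N.E ∧ s'.rf.get e = N.X e) ∧
    ∀ e, e ∉ new → s'.rf.get e = s.rf.get e

theorem Lg.refl (s : St T) (N : Net) : Lg s s N [] := ⟨rfl, by simp, fun _ _ => rfl⟩

theorem Lg.trans {s s' s'' : St T} {N : Net} {n n' : List ℕ} (h : Lg s s' N n)
    (h' : Lg s' s'' N n') : Lg s s'' N (n' ++ n) := by
  refine ⟨by rw [h'.1, h.1, List.append_assoc], fun e he => ?_, fun e he => ?_⟩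
  · by_cases h1 : e ∈ n'
    · exact h'.2.1 e h1
    · have h2 := h.2.1 e ((List.mem_append.1 he).resolve_left h1)
      exact ⟨h2.1, (h'.2.2 e h1).trans h2.2⟩
  · rw [List.mem_append, not_or] at he
    exact (h'.2.2 e he.1).trans (h.2.2 e he.2)

theorem sp_chk (hS : TowerSpec g θ κ run k Sh It Ψ) (hN : Num P B k.th k.ψ k.er κ)
    (hT : Tim g θ k P B c) {s : St T} {C : List ℕ} {N : Net} {e : ℕ}
    (h : J It P B s (e :: C) N) (hQ : Q Ψ k B s + θ * (e :: C).length ≤ θ * F1 k B) :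
    Sp g (chk run P (s, e :: C)) fun u t => J It P B u.1 u.2 N ∧ ∃ new, Lg s u.1 N new ∧
      θ * (t + 1) + Q Ψ k B u.1 + θ * u.2.length + θ * (c.cl * new.length) ≤
        Q Ψ k B s + θ * (e :: C).length := by
  simp only [chk, List.length_cons, mul_add, mul_one] at hQ ⊢
  rw [sp_ite]
  constructor
  · intro hlt
    have he : e ∈ N.E := by
      by_contra hn
      obtain ⟨G, f, h⟩ := h
      rw [h.out e hn] at hlt
      omega
    have o : s.arc.get e = N.arc e ∧ B.arc e (N.arc e) ∧ Dom B (N.arc e) (N.X e) := by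
      obtain ⟨G, f, h⟩ := h
      exact ⟨(h.ok e he).arc, (h.ok e he).bd, (h.ok e he).dx⟩
    have w1 := hT.wt
    have w2 := Nat.mul_le_mul_left k.wt hlt.le
    refine (sp_del0 hS hN hT h he (by omega)).bind ?_
    rintro v t ⟨a1, a2, a3, a4, a5, a6⟩
    simp only [mul_add] at w1 a6
    rw [a2, a3, o.1]
    refine (sp_ins0 hS hN hT a1 (notMem_erase _ _) o.2.1 o.2.2 (by nlinarith)).mono ?_
    rintro u t' ⟨b1, b2, b3, b4⟩
    rw [Net.ins_del he] at b1
    refine ⟨b1, [e], ⟨by rw [b3, a5]; rfl, fun e' he' => ?_, fun e' he' => ?_⟩, ?_⟩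
    · rw [List.mem_singleton.1 he', b2]; exact ⟨he, Arr.get_set_self _ _ _⟩
    · rw [b2, a4]; exact Arr.get_set_ne _ (by simpa using he') _
    · simp only [mul_add, List.length_singleton, mul_one] at b4 ⊢
      nlinarith
  · intro hle
    refine sp_pure.2 ⟨?_, [], Lg.refl _ _, by simp; omega⟩
    obtain ⟨G, f, h⟩ := h
    refine ⟨G, f, h.tw, h.E, h.EU, h.U, fun e' he' =>
      { h.ok e' he' with chk := fun hn => ?_ }, h.out⟩
    by_cases h1 : e' = e
    · subst h1; exact not_lt.1 hle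
    · exact (h.ok e' he').chk (by simp [h1, hn])

theorem sp_proc (hS : TowerSpec g θ κ run k Sh It Ψ) (hN : Num P B k.th k.ψ k.er κ)
    (hT : Tim g θ k P B c) {s : St T} {C : List ℕ} {N : Net}
    (h : J It P B s C N) (hQ : Q Ψ k B s + θ * C.length ≤ θ * F1 k B) :
    Sp g (proc run P (s, C)) fun s' t => J It P B s' [] N ∧ ∃ new, Lg s s' N new ∧
      θ * t + Q Ψ k B s' + θ * (c.cl * new.length) ≤ Q Ψ k B s + θ * C.length + θ := by
  simp only [proc, sp_bind, sp_pure]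
  refine (sp_whileT (fun u t => J It P B u.1 u.2 N ∧ ∃ new, Lg s u.1 N new ∧
      θ * t + Q Ψ k B u.1 + θ * u.2.length + θ * (c.cl * new.length) ≤ Q Ψ k B s + θ * C.length)
      (F1 k B) ?_ ?_ (t := 0) ⟨h, [], Lg.refl _ _, by simp⟩ ?_).mono ?_
  · rintro u t ⟨-, new, -, h2⟩ -
    exact Nat.le_of_mul_le_mul_left (show θ * t ≤ θ * F1 k B by omega) hT.θ1
  · rintro ⟨s', C'⟩ t ⟨h1, new, h2, h3⟩ hc
    cases C' with
    | nil => simp at hc
    | cons e C' =>
      dsimp only at h1 h2 h3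
      refine (sp_chk hS hN hT h1 (by omega)).mono ?_
      rintro u t' ⟨b1, new', b2, b3⟩
      refine ⟨b1, new' ++ new, h2.trans b2, ?_⟩
      simp only [List.length_append, mul_add, mul_one] at h3 b3 ⊢
      omega
  · have := hT.fu
    unfold F1; omega
  · rintro ⟨s', C'⟩ _ ⟨hc, t, rfl, h1, new, h2, h3⟩
    have : C' = [] := by simpa using hc
    subst this
    refine ⟨h1, new, h2, ?_⟩
    simp only [List.length_nil, mul_add, mul_one, zero_add, mul_zero, add_zero] at h3 ⊢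
    omega

end Crest.Agent.N325.Ip
end

-- ▼ part N325/Ip/Spec
section

/-! # Row 325 (helper62): the specification of the primal centre -/

set_option autoImplicit false
open Finset

namespace Crest.Agent.N325.Ip

open Crest.Agent.N325.Tw Crest.Agent.N325.Ipm

variable {T : Type} {g : Gl} {θ κ : ℕ} {run : Cmd × T → R (T × Rep × Bool)} {k : TC}
  {Sh : T → Prop} {It : T → Gr → (ℕ → ℤ) → Prop} {Ψ : T → ℕ} {P : Pm} {B : Bn} {c : IC}

/-- the potential of the layer -/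
noncomputable def Ph (θ : ℕ) (Ψ : T → ℕ) (k : TC) (B : Bn) (s : St T) : ℝ := (Q Ψ k B s : ℝ) / θ

theorem Q_le (hT : Tim g θ k P B c) {s : St T} {F : ℕ} (h : Ph θ Ψ k B s ≤ F) :
    Q Ψ k B s ≤ θ * F := by
  have h0 : (0 : ℝ) < θ := by exact_mod_cast hT.θ1
  unfold Ph at h
  rw [div_le_iff₀ h0, mul_comm] at h
  exact_mod_cast h

theorem Ph_le (hT : Tim g θ k P B c) {s s' : St T} {a b : ℕ}
    (h : θ * a + Q Ψ k B s' ≤ Q Ψ k B s + θ * b) :
    (a : ℝ) + Ph θ Ψ k B s' ≤ Ph θ Ψ k B s + b := by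
  have h0 : (0 : ℝ) < θ := by exact_mod_cast hT.θ1
  have h1 : (θ : ℝ) * a + Q Ψ k B s' ≤ Q Ψ k B s + θ * b := by exact_mod_cast h
  unfold Ph
  rw [← sub_nonneg]
  have : (Q Ψ k B s : ℝ) / θ + b - (a + Q Ψ k B s' / θ) =
      (Q Ψ k B s + θ * b - (θ * a + Q Ψ k B s')) / θ := by field_simp
  rw [this]
  exact div_nonneg (by linarith) h0.le

theorem Ph_nonneg (s : St T) : 0 ≤ Ph θ Ψ k B s := by unfold Ph; positivity

theorem Lg.upd (hT : Tim g θ k P B c) {s s' : St T} {N : Net} {new : List ℕ} (h : Lg s s' N new)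
    {t a A : ℕ} (ht : θ * t + Q Ψ k B s' + θ * (c.cl * new.length) ≤ Q Ψ k B s + θ * a)
    (hA : a ≤ A) : Upd c (Ph θ Ψ k B) s s' N.E new t A := by
  refine ⟨h.1, fun e he => (h.2.1 e he).1, h.2.2, ?_⟩
  have h1 := Ph_le (Ψ := Ψ) hT (s := s) (s' := s') (a := t + c.cl * new.length) (b := a)
    (by rw [mul_add]; omega)
  have h2 : (a : ℝ) ≤ A := by exact_mod_cast hA
  push_cast at h1
  linarith

theorem Core.link (hS : TowerSpec g θ κ run k Sh It Ψ) {s : St T} {N : Net} {G : Gr} {f : ℕ → ℤ}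
    (h : Core It P B s [] N G f) : Link P B k.er N s.rf.get G := by
  refine ⟨h.E, fun e he => ?_⟩
  have o := h.ok e he
  refine ⟨o.bd, o.dx, o.dr, o.ed, ?_⟩
  have h1 := hS.stale h.tw e (h.E ▸ he)
  have h2 := o.chk List.not_mem_nil
  rw [o.ed] at h1
  rw [o.ll] at h2
  have h3 : (N.X e - s.rf.get e).natAbs ≤ (f e).natAbs + (s.kn.get e - s.rf.get e).natAbs := by
    have := o.val; omega
  have h4 := Nat.mul_le_mul_right (lI P (N.arc e) (s.rf.get e)) h3
  rw [add_mul] at h4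
  exact h4.trans (Nat.add_le_add h1 h2)

theorem sp_ins (hS : TowerSpec g θ κ run k Sh It Ψ) (hN : Num P B k.th k.ψ k.er κ)
    (hT : Tim g θ k P B c) {s : St T} {N : Net} {e : ℕ} {A : Arc} {x : ℤ}
    (h : J It P B s [] N) (hQ : Q Ψ k B s ≤ θ * B.F) (he : e ∉ N.E) (hA : B.arc e A)
    (hx : Dom B A x) :
    Sp g (ins run P s e A x) fun s' t => J It P B s' [] (N.ins e A x) ∧ ∃ new, e ∈ new ∧
      Lg s s' (N.ins e A x) new ∧
      θ * t + Q Ψ k B s' + θ * (c.cl * new.length) ≤ Q Ψ k B s + θ * (k.AU + c.cl + 3) := by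
  have hF : θ * F1 k B = θ * B.F + θ * k.AU + θ * k.AS + θ * 9 := by unfold F1; ring
  refine (sp_ins0 hS hN hT h he hA hx (by omega)).bind ?_
  rintro ⟨s1, C⟩ t ⟨a1, a2, a3, a4⟩
  dsimp only at a1 a2 a3 a4
  simp only [List.length_nil, mul_add, mul_zero] at a4
  refine (sp_proc hS hN hT a1 (by omega)).mono ?_
  rintro s' t' ⟨b1, new, b2, b3⟩
  have l : Lg s s1 (N.ins e A x) [e] := by
    refine ⟨a3, fun e' he' => ?_, fun e' he' => ?_⟩
    · rw [List.mem_singleton.1 he', a2]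
      exact ⟨mem_insert_self _ _, by simp [Net.ins]⟩
    · rw [a2]; exact Arr.get_set_ne _ (by simpa using he') _
  refine ⟨b1, new ++ [e], by simp, l.trans b2, ?_⟩
  simp only [List.length_append, List.length_singleton, mul_add, mul_one] at b3 ⊢
  omega

theorem sp_del (hS : TowerSpec g θ κ run k Sh It Ψ) (hN : Num P B k.th k.ψ k.er κ)
    (hT : Tim g θ k P B c) {s : St T} {N : Net} {e : ℕ}
    (h : J It P B s [] N) (hQ : Q Ψ k B s ≤ θ * B.F) (he : e ∈ N.E) :
    Sp g (del run P s e) fun r t => J It P B r.1 [] (N.del e) ∧ r.2 = N.X e ∧ ∃ new,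
      Lg s r.1 (N.del e) new ∧
      θ * t + Q Ψ k B r.1 + θ * (c.cl * new.length) ≤ Q Ψ k B s + θ * (k.AU + 3) := by
  have hF : θ * F1 k B = θ * B.F + θ * k.AU + θ * k.AS + θ * 9 := by unfold F1; ring
  refine (sp_del0 hS hN hT (h.mono (by simp)) he (by omega)).bind ?_
  rintro ⟨s1, C⟩ t ⟨a1, a2, a3, a4, a5, a6⟩
  dsimp only at a1 a2 a3 a4 a5 a6
  simp only [List.length_nil, mul_add, mul_zero] at a6
  refine (sp_proc hS hN hT a1 (by omega)).bind ?_
  rintro s' t' ⟨b1, new, b2, b3⟩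
  refine sp_pure.2 ⟨b1, a2, new, ⟨by rw [b2.1, a5], b2.2.1, fun e' he' => by
    rw [b2.2.2 e' he', a4]⟩, ?_⟩
  simp only [mul_add, add_zero] at b3 ⊢
  omega

theorem sp_step1 (hS : TowerSpec g θ κ run k Sh It Ψ) (hN : Num P B k.th k.ψ k.er κ)
    (hT : Tim g θ k P B c) {s : St T} {b : Bool} {N : Net}
    (h : J It P B s [] N) (hQ : Q Ψ k B s ≤ θ * B.F) (hp : pot P B N ≤ B.F) :
    Sp g (step1 run P (s, b)) fun u t => ∃ d, N.Circ d ∧ J It P B u.1 [] (N.add d) ∧
      (if u.2 then pot P B (N.add d) + (k.ψ : ℝ) ^ 2 / (10 ^ 6 * k.th ^ 2) ≤ pot P B N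
        else N.add d = N ∧ Quiet P N) ∧ ∃ new, Lg s u.1 (N.add d) new ∧
      θ * t + Q Ψ k B u.1 + θ * (c.cl * new.length) ≤ Q Ψ k B s + θ * (k.AS + 3) := by
  have hF : θ * F1 k B = θ * B.F + θ * k.AU + θ * k.AS + θ * 9 := by unfold F1; ring
  obtain ⟨G, f, h⟩ := h
  have gok := h.gok hN hT
  have L := h.link hS
  simp only [step1, sp_bind, sp_call, sp_pure]
  refine (hS.step (0, none) h.tw gok).mono ?_
  rintro r t ⟨f', d, i1, i2, i3, i4, i5⟩
  have hlen : r.2.1.length ≤ F1 k B + k.AS :=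
    rep_len hT (a := Ψ s.tw) (z := θ * t + Ψ r.1 + k.wt * rw G.ed r.2.1)
      (by omega) (by unfold Q at hQ; omega)
  have hX := rep_X hT i2 (Nat.le_add_left _ _) hlen
  refine (sp_app r.2.1 s.kn [] fun x hx => ?_).mono ?_
  · have := h.kn_le hS hN (h.E ▸ (i2 x hx).1)
    omega
  rintro u t' ⟨a1, a2, a3, a4⟩
  have key : N.Circ d ∧ (∀ e ∈ N.E, Dom B (N.arc e) (N.X e + d e)) ∧
      (if r.2.2 then pot P B (N.add d) + (k.ψ : ℝ) ^ 2 / (10 ^ 6 * k.th ^ 2) ≤ pot P B N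
        else N.add d = N ∧ Quiet P N) := by
    cases hb : r.2.2 with
    | true =>
      rw [hb, if_pos rfl] at i4
      simpa using L.drop hN hp i4
    | false =>
      rw [hb, if_neg (by simp)] at i4
      have : d = fun _ => 0 := funext i4.2
      subst this
      refine ⟨fun z => by simp, fun e he => by simpa using (h.ok e he).dx, ?_⟩
      rw [if_neg (by simp)]
      exact ⟨N.add_zero, L.quiet hN i4.1⟩
  have j : J It P B ⟨r.1, s.arc, u.1, s.rf, s.ll, s.log⟩ u.2 (N.add d) := by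
    refine ⟨G, f', i1, h.E, h.EU, h.U, fun e he => ?_, h.out⟩
    have o := h.ok e he
    have i6 := i3 e (h.E ▸ he)
    refine ⟨o.arc, o.bd, key.2.1 e he, o.dr, o.ed, o.ll, ?_, fun hn => ?_⟩
    · change N.X e + d e = u.1.get e + f' e
      rw [a1, o.val]; omega
    · change (u.1.get e - s.rf.get e).natAbs * s.ll.get e ≤ _
      rw [a2, not_or] at hn
      rw [a1, rsum_eq_zero hn.1, add_zero]
      exact o.chk List.not_mem_nil
  have q : θ * (1 + t + t') + Q Ψ k B ⟨r.1, s.arc, u.1, s.rf, s.ll, s.log⟩ + θ * u.2.length ≤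
      Q Ψ k B s + θ * (k.AS + 2) := by
    have d1 := dev_rsum B.m s.kn.get s.rf.get s.ll.get r.2.1
    have d3 : (r.2.1.map fun x => x.2.natAbs * s.ll.get x.1).sum ≤ rw G.ed r.2.1 :=
      sum_le_rw fun x hx => by
        have o := h.ok x.1 (h.E ▸ (i2 x hx).1)
        rw [o.ll, o.ed]; exact le_rfl
    have e1 : u.1.get = fun e => s.kn.get e + rsum r.2.1 e := funext a1
    have d4 := Nat.mul_le_mul_left k.wt (show dev B.m u.1.get s.rf.get s.ll.get ≤
        dev B.m s.kn.get s.rf.get s.ll.get + rw G.ed r.2.1 by rw [e1]; omega)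
    have d5 := cc_pay hT r.2.1.length
    simp only [Q, a3, a4, mul_add, List.length_nil, add_zero] at d4 ⊢
    omega
  simp only [mul_add] at q
  refine (sp_proc hS hN hT j (by omega)).mono ?_
  rintro s' t'' ⟨b1, new, b2, b3⟩
  refine ⟨d, key.1, b1, key.2.2, new, b2, ?_⟩
  simp only [mul_add, add_zero] at b3 ⊢
  omega

theorem AP_pay (hN : Num P B k.th k.ψ k.er κ) (hT : Tim g θ k P B c) :
    (k.AS : ℝ) + 5 ≤ c.AP * ((k.ψ : ℝ) ^ 2 / (10 ^ 6 * k.th ^ 2)) ∧ (1 : ℝ) ≤ c.AP := by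
  have h1 : (1 : ℝ) ≤ k.ψ := by exact_mod_cast hN.ψ1
  have h2 : (k.ψ : ℝ) ≤ k.th := by exact_mod_cast hN.ψth
  have h3 : ((k.AS : ℝ) + 5) * (10 ^ 6 * k.th ^ 2) ≤ c.AP * k.ψ ^ 2 := by exact_mod_cast hT.AP
  have h4 : (0 : ℝ) < 10 ^ 6 * k.th ^ 2 := by have : (0 : ℝ) < k.th := by linarith
                                              positivity
  refine ⟨by rw [← mul_div_assoc, le_div_iff₀ h4]; exact h3, ?_⟩
  have h5 : 1 ≤ c.AP := by
    rw [Nat.one_le_iff_ne_zero]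
    intro h0
    rw [h0] at h3
    have : (0 : ℝ) ≤ k.AS := Nat.cast_nonneg _
    have : 0 < ((k.AS : ℝ) + 5) * (10 ^ 6 * k.th ^ 2) := by positivity
    simp at h3
    nlinarith
  exact_mod_cast h5

theorem J.pot_nonneg (hN : Num P B k.th k.ψ k.er κ) {s : St T} {C : List ℕ} {N : Net}
    (h : J It P B s C N) : 0 ≤ pot P B N := by
  obtain ⟨G, f, h⟩ := h
  exact Ip.pot_nonneg hN fun e he => ⟨(h.ok e he).bd, (h.ok e he).dx⟩

theorem sp_qui (hS : TowerSpec g θ κ run k Sh It Ψ) (hN : Num P B k.th k.ψ k.er κ)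
    (hT : Tim g θ k P B c) {s : St T} {N : Net} (h : J It P B s [] N)
    (hF : Ph θ Ψ k B s + c.AP * pot P B N ≤ B.F) :
    Sp g (qui run P s) fun s' τ => ∃ d, N.Circ d ∧ J It P B s' [] (N.add d) ∧ Quiet P (N.add d) ∧
      pot P B (N.add d) ≤ pot P B N ∧ ∃ new, Upd c (Ph θ Ψ k B) s s' N.E new τ
        (c.AQ + c.AP * (pot P B N - pot P B (N.add d))) := by
  obtain ⟨p1, p2⟩ := AP_pay hN hT
  have p0 := h.pot_nonneg hN
  have p3 := Ph_nonneg (θ := θ) (Ψ := Ψ) (k := k) (B := B) s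
  have p4 : pot P B N ≤ B.F := by nlinarith
  simp only [qui, sp_bind, sp_pure]
  refine (sp_whileT (fun u t => ∃ d, N.Circ d ∧ J It P B u.1 [] (N.add d) ∧
      (u.2 = false → Quiet P (N.add d)) ∧ pot P B (N.add d) ≤ pot P B N ∧ ∃ new,
        Upd c (Ph θ Ψ k B) s u.1 N.E new t ((if u.2 then 0 else (k.AS : ℝ) + 4) +
          c.AP * (pot P B N - pot P B (N.add d)))) B.F ?_ ?_ (t := 0)
      ⟨fun _ => 0, fun z => by simp, by rwa [N.add_zero], by simp, by rw [N.add_zero], [], rfl,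
        by simp, fun _ _ => rfl, by simp [N.add_zero]⟩ (by have := hT.fu; omega)).mono ?_
  · rintro u t ⟨d, -, h2, -, -, new, -, -, -, h3⟩ hb
    rw [if_pos hb] at h3
    have := h2.pot_nonneg hN
    have := Ph_nonneg (θ := θ) (Ψ := Ψ) (k := k) (B := B) u.1
    have : (0 : ℝ) ≤ c.cl * new.length := by positivity
    have : (t : ℝ) ≤ B.F := by nlinarith
    exact_mod_cast this
  · rintro ⟨s1, b⟩ t ⟨d, h1, h2, -, h4, new, u1, u2, u3, u4⟩ hb
    dsimp only at h2 u1 u3 u4 hb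
    rw [if_pos hb] at u4
    have n1 := h2.pot_nonneg hN
    have n2 : (0 : ℝ) ≤ c.cl * new.length := by positivity
    have n3 : (0 : ℝ) ≤ t := Nat.cast_nonneg _
    have hQ := Q_le (Ψ := Ψ) hT (s := s1) (F := B.F) (by nlinarith)
    refine (sp_step1 hS hN hT h2 hQ (h4.trans p4)).mono ?_
    rintro ⟨s2, b2⟩ t' ⟨d', a1, a2, a3, new', a4, a5⟩
    dsimp only at a2 a3 a4 a5 ⊢
    obtain ⟨v1, v2, v3, v4⟩ := a4.upd hT a5 le_rfl
    rw [Net.add_add] at a2 a3
    have w : pot P B (N.add fun e => d e + d' e) ≤ pot P B (N.add d) ∧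
        (b2 = false → Quiet P (N.add fun e => d e + d' e)) ∧
        (k.AS : ℝ) + 4 ≤ (if b2 then 0 else (k.AS : ℝ) + 4) +
          c.AP * (pot P B (N.add d) - pot P B (N.add fun e => d e + d' e)) := by
      cases b2 with
      | true =>
        rw [if_pos rfl] at a3 ⊢
        have : (0 : ℝ) ≤ (k.ψ : ℝ) ^ 2 / (10 ^ 6 * k.th ^ 2) := by positivity
        refine ⟨by linarith, by simp, ?_⟩
        nlinarith
      | false =>
        rw [if_neg (by simp)] at a3 ⊢
        rw [a3.1]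
        exact ⟨le_rfl, fun _ => a3.2, by simp⟩
    refine ⟨fun e => d e + d' e, h1.add a1, a2, w.2.1, w.1.trans h4, new' ++ new,
      by rw [v1, u1, List.append_assoc], fun e he => ?_, fun e he => ?_, ?_⟩
    · exact (List.mem_append.1 he).elim (v2 e) (u2 e)
    · rw [List.mem_append, not_or] at he
      exact (v3 e he.1).trans (u3 e he.2)
    · have := w.2.2
      simp only [List.length_append]
      push_cast at v4 ⊢
      nlinarith
  · rintro ⟨s1, b⟩ _ ⟨hb, t, rfl, d, h1, h2, h3, h4, new, u1, u2, u3, u4⟩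
    dsimp only at hb h2 h3 u1 u3 u4 ⊢
    rw [hb, if_neg (by simp)] at u4
    refine ⟨d, h1, h2, h3 hb, h4, new, u1, u2, u3, ?_⟩
    have : (k.AS : ℝ) + 6 ≤ c.AQ := by exact_mod_cast hT.AQ
    push_cast at u4 ⊢
    linarith

/-- **the primal centre meets its specification** -/
theorem ipSpec (hS : TowerSpec g θ κ run k Sh It Ψ) (hN : Num P B k.th k.ψ k.er κ)
    (hT : Tim g θ k P B c) :
    IpSpec g run P B c Sh (fun s N => J It P B s [] N) (Ph θ Ψ k B) where
  nonneg := fun _ => Ph_nonneg _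
  sh := fun ⟨_, _, h⟩ => hS.sh h.tw
  view := by
    rintro s N ⟨G, f, h⟩ e he
    have o := h.ok e he
    refine ⟨o.arc, o.bd, o.dx, o.dr, (near_of_int hN o.bd o.dr ((h.link hS).2 e he).2.2.2.2).trans ?_⟩
    have h1 : (1 : ℝ) ≤ k.ψ := by exact_mod_cast hN.ψ1
    have h2 : (k.ψ : ℝ) ≤ k.th := by exact_mod_cast hN.ψth
    rw [div_le_div_iff₀ (by linarith) (by norm_num)]
    linarith
  setLog := by
    rintro s N l ⟨G, f, h⟩
    exact ⟨⟨G, f, h.tw, h.E, h.EU, h.U, fun e he =>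
      let o := h.ok e he; ⟨o.arc, o.bd, o.dx, o.dr, o.ed, o.ll, o.val, o.chk⟩, h.out⟩, rfl⟩
  init := by
    intro t ht
    simp only [init, sp_bind, sp_call, sp_pure]
    refine (hS.reset (0, none) ht).mono ?_
    rintro r τ ⟨i1, -, i3⟩
    refine ⟨⟨Gr.emp, _, i1, rfl, subset_rfl, empty_subset _, fun e he => absurd he (notMem_empty _),
      fun _ _ => rfl⟩, trivial, ?_⟩
    have h0 : (0 : ℝ) < θ := by exact_mod_cast hT.θ1
    have h1 : (θ : ℝ) * τ + Ψ r.1 ≤ θ * k.AR := by exact_mod_cast i3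
    have h2 : (k.AR : ℝ) + 1 ≤ c.AR := by exact_mod_cast hT.AR
    have h3 : (Ψ r.1 : ℝ) / θ ≤ k.AR - τ := by rw [div_le_iff₀ h0]; linarith
    simp only [Ph, Q, dev, Arr.get_cst, mul_zero, sum_const_zero, add_zero]
    push_cast
    linarith
  ins := fun e A x h hF he hA hx => (sp_ins hS hN hT h (Q_le hT hF) he hA hx).mono
    fun _ _ ⟨a1, new, a2, a3, a4⟩ => ⟨a1, new, a2, fun e' he' => (a3.2.1 e' he').2,
      a3.upd hT a4 (by have := hT.AU; omega)⟩
  del := fun e h hF he => (sp_del hS hN hT h (Q_le hT hF) he).mono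
    fun _ _ ⟨a1, a2, new, a3, a4⟩ => ⟨a1, a2, new, fun e' he' => (a3.2.1 e' he').2,
      a3.upd hT a4 (by have := hT.AU; omega)⟩
  get := by
    intro s N e h hF he
    have hAU := hT.AU
    have hF' : Q Ψ k B s + θ * c.AU ≤ θ * B.F := by
      have h1 : (c.AU : ℝ) ≤ B.F := by
        have := Ph_nonneg (θ := θ) (Ψ := Ψ) (k := k) (B := B) s
        linarith
      have h2 : c.AU ≤ B.F := by exact_mod_cast h1
      have h3 := Q_le (Ψ := Ψ) hT (s := s) (F := B.F - c.AU) (by push_cast [h2]; linarith)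
      have h4 : θ * (B.F - c.AU) + θ * c.AU = θ * B.F := by rw [← mul_add]; congr 1; omega
      omega
    have hm : θ * (k.AU + c.cl + 4) ≤ θ * c.AU := Nat.mul_le_mul_left _ hAU
    have o : s.arc.get e = N.arc e ∧ B.arc e (N.arc e) ∧ Dom B (N.arc e) (N.X e) := by
      obtain ⟨G, f, h⟩ := h
      exact ⟨(h.ok e he).arc, (h.ok e he).bd, (h.ok e he).dx⟩
    refine (sp_del hS hN hT h (by omega) he).bind ?_
    rintro ⟨s1, x⟩ t ⟨a1, a2, new, a3, a4⟩
    dsimp only at a1 a2 a3 a4 ⊢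
    simp only [mul_add] at a4 hm
    rw [a2, o.1]
    refine (sp_ins hS hN hT a1 (by omega) (notMem_erase _ _) o.2.1 o.2.2).bind ?_
    rintro s2 t' ⟨b1, new', b2, b3, b4⟩
    rw [Net.ins_del he] at b1 b3
    have a3' : Lg s s1 N new := ⟨a3.1, fun e' he' =>
      ⟨mem_of_mem_erase (a3.2.1 e' he').1, (a3.2.1 e' he').2⟩, a3.2.2⟩
    have l := a3'.trans b3
    refine sp_pure.2 ⟨b1, rfl, new' ++ new, by simp [b2], fun e' he' => (l.2.1 e' he').2, ?_⟩
    have := l.upd (Ψ := Ψ) hT (t := t + (t' + 0)) (a := 2 * c.AU) (A := 2 * c.AU) (by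
      simp only [List.length_append, mul_add, mul_left_comm θ 2] at b4 ⊢
      omega) le_rfl
    push_cast at this ⊢
    exact this
  qui := fun h hF => sp_qui hS hN hT h hF

end Crest.Agent.N325.Ip
end

-- ▼ part N325/Ip/Par

/-!
# Row 325 (helper37): the scales of the layer `Ip` in closed form

From the constants of the tower (`th`, `ψ`, staleness `er ≤ ε θ`, `Kb lb ≤ κ`), the refresh factor
`τ` (`thr = τ θ`), and the needs of the user (width `W`, weights `cb`, prices `pb`, potentials `F`,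
inverse truncation point `Λ`) all scales are products.
-/

set_option autoImplicit false

namespace Crest.Agent.N325.Ip

/-- the raw inputs -/
structure Raw where
  th : ℕ
  ψ : ℕ
  ε : ℕ
  τ : ℕ
  Kb : ℕ
  W : ℕ
  cb : ℕ
  pb : ℕ
  F : ℕ
  Λ : ℕ
  fu : ℕ

namespace Raw

variable (r : Raw)

/-- smallest slack -/
def sm : ℕ := 16000 * r.th * r.Kb * r.cb * (r.F + 1)
/-- truncation point -/
def s0 : ℕ := r.sm * (r.F + 1)
/-- units -/
def D : ℕ := r.s0 * r.Λ
/-- scale of the lengths -/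
def Gl : ℕ := 4000 * r.th * (r.ε + r.τ) * r.W
/-- threshold of the reports -/
def θ : ℕ := r.D * r.W * r.ψ
/-- size of a step -/
def κ : ℕ := (r.ε + r.τ) * r.θ
/-- the stored parameters -/
def P : Pm := ⟨r.D, r.s0, 40 * r.th * r.Gl, r.Gl, r.τ * r.θ, r.fu⟩
/-- the ghost bounds -/
def B (m nb : ℕ) : Bn := ⟨m, nb, r.W * r.D, r.cb, r.pb, r.sm, r.F⟩
/-- bound on the lengths -/
def lb : ℕ := lbI r.P (r.B 0 0)
/-- bound on the gradients -/
def gb : ℕ := gbI r.P (r.B 0 0)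

theorem lbI_eq (m nb : ℕ) : lbI r.P (r.B m nb) = r.lb := rfl
theorem gbI_eq (m nb : ℕ) : gbI r.P (r.B m nb) = r.gb := rfl

/-- positivity of the inputs -/
structure Pos : Prop where
  ψ : 1 ≤ r.ψ
  ψth : r.ψ ≤ r.th
  τ : 1 ≤ r.τ
  Kb : 1 ≤ r.Kb
  W : 1 ≤ r.W
  cb : 1 ≤ r.cb
  Λ : 1 ≤ r.Λ

/-- all inputs are at most `Y` -/
structure Le (Y : ℕ) : Prop where
  big : 16000 ≤ Y
  th : r.th ≤ Y
  ρ : r.ε + r.τ ≤ Y
  Kb : r.Kb ≤ Y
  W : r.W ≤ Y
  cb : r.cb ≤ Y
  pb : r.pb ≤ Y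
  F : r.F + 1 ≤ Y
  Λ : r.Λ ≤ Y

variable {r}

theorem Pos.th (h : r.Pos) : 1 ≤ r.th := h.ψ.trans h.ψth

theorem Pos.Kb_sm (h : r.Pos) : 16000 * r.Kb ≤ r.sm := by
  have h1 : 1 ≤ r.th * r.cb * (r.F + 1) :=
    Nat.mul_pos (Nat.mul_pos h.th h.cb) (Nat.succ_pos _)
  calc 16000 * r.Kb = 16000 * r.Kb * 1 := (mul_one _).symm
    _ ≤ 16000 * r.Kb * (r.th * r.cb * (r.F + 1)) := Nat.mul_le_mul_left _ h1
    _ = r.sm := by unfold sm; ring

theorem Pos.sm (h : r.Pos) : 1 ≤ r.sm := by have := h.Kb_sm; have := h.Kb; omega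
theorem sm_le_s0 (r : Raw) : r.sm ≤ r.s0 := Nat.le_mul_of_pos_right _ (Nat.succ_pos _)
theorem Pos.s0_le_D (h : r.Pos) : r.s0 ≤ r.D := Nat.le_mul_of_pos_right _ h.Λ
theorem Pos.s0 (h : r.Pos) : 1 ≤ r.s0 := h.sm.trans r.sm_le_s0
theorem Pos.D (h : r.Pos) : 1 ≤ r.D := h.s0.trans h.s0_le_D
theorem Pos.D_le_θ (h : r.Pos) : r.D * r.W ≤ r.θ := Nat.le_mul_of_pos_right _ h.ψ
theorem Pos.θ (h : r.Pos) : 1 ≤ r.θ := (Nat.mul_pos h.D h.W).trans_le h.D_le_θ
theorem Pos.θ_le_κ (h : r.Pos) : r.θ ≤ r.κ :=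
  Nat.le_mul_of_pos_left _ (by have := h.τ; omega)

theorem key (r : Raw) : r.D * r.Gl * r.ψ = 4000 * r.th * r.κ := by
  unfold Gl κ θ; ring

/-- the truncation point -/
theorem Pos.σ0 (h : r.Pos) : σ0 r.P = 1 / r.Λ := by
  have h1 : (r.s0 : ℝ) ≠ 0 := by have := h.s0; positivity
  change (r.s0 : ℝ) / (r.D : ℕ) = _
  rw [Raw.D]; push_cast; field_simp

/-- the normalisation -/
theorem Pos.lM (h : r.Pos) (m nb : ℕ) : lM r.P (r.B m nb) = Real.log r.W := by
  have h1 : (r.D : ℝ) ≠ 0 := by have := h.D; positivity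
  change Real.log (((r.W * r.D : ℕ) : ℝ) / (r.D : ℕ)) = _
  push_cast; rw [mul_div_assoc, div_self h1, mul_one]

/-- **the numeric side conditions** -/
theorem Pos.num (h : r.Pos) {er : ℕ} (he : er ≤ r.ε * r.θ) (m nb : ℕ) :
    Num r.P (r.B m nb) r.th r.ψ er r.κ where
  D := h.D
  ψ1 := h.ψ
  ψth := h.ψth
  sm1 := h.sm
  sm := le_rfl
  s0 := h.s0_le_D.trans (Nat.le_mul_of_pos_left _ h.W)
  Gl := by
    change 100 * (r.W * r.D) ≤ r.Gl * r.D
    have h1 : 1 ≤ r.th * (r.ε + r.τ) := Nat.mul_pos h.th (by have := h.τ; omega)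
    calc 100 * (r.W * r.D) ≤ 4000 * (r.W * r.D) * 1 := by omega
      _ ≤ 4000 * (r.W * r.D) * (r.th * (r.ε + r.τ)) := Nat.mul_le_mul_left _ h1
      _ = r.Gl * r.D := by unfold Gl; ring
  Gg := rfl
  er := by
    change 4000 * r.th * (er + r.τ * r.θ) ≤ r.D * r.Gl * r.ψ
    rw [key]
    exact Nat.mul_le_mul_left _ (by unfold κ; rw [add_mul]; omega)
  κ1 := (key r).ge
  κ2 := by
    change r.D * r.Gl * r.ψ ≤ _
    rw [key]
    exact Nat.mul_le_mul_right _ (Nat.mul_le_mul_right _ (by norm_num))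

theorem Pos.quo (h : r.Pos) (c : ℕ) :
    4 * r.Kb * (c * r.Gl * r.cb * r.s0 * r.D / (r.sm * r.sm)) ≤ c * ((r.ε + r.τ) * (r.D * r.W)) := by
  have h0 : 0 < r.sm * r.sm := Nat.mul_pos h.sm h.sm
  refine (Nat.mul_div_le_mul_div_assoc _ _ _).trans (Nat.div_le_of_le_mul (le_of_eq ?_))
  have h1 : 4 * r.Kb * (r.Gl * r.cb * (r.F + 1)) = r.sm * ((r.ε + r.τ) * r.W) := by
    unfold Gl Raw.sm; ring
  calc 4 * r.Kb * (c * r.Gl * r.cb * r.s0 * r.D)
      = 4 * r.Kb * (r.Gl * r.cb * (r.F + 1)) * (c * r.sm * r.D) := by unfold Raw.s0; ring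
    _ = _ := by rw [h1]; ring

/-- **walks are short compared with a step** -/
theorem Pos.Kb_lb (h : r.Pos) : r.Kb * r.lb ≤ r.κ := by
  have h1 := h.quo 1
  simp only [one_mul] at h1
  have h2 : (r.ε + r.τ) * (r.D * r.W) ≤ r.κ := Nat.mul_le_mul_left _ h.D_le_θ
  have h3 : 16000 * r.Kb ≤ r.κ :=
    (h.Kb_sm.trans (r.sm_le_s0.trans h.s0_le_D)).trans
      ((Nat.le_mul_of_pos_right _ h.W).trans (h.D_le_θ.trans h.θ_le_κ))
  change r.Kb * (r.Gl * r.cb * r.s0 * r.D / (r.sm * r.sm) + 3) ≤ _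
  rw [mul_add]
  rw [mul_assoc] at h1
  omega

theorem Pos.lb_le (h : r.Pos) : r.lb ≤ r.κ := (Nat.le_mul_of_pos_left _ h.Kb).trans h.Kb_lb

theorem Pos.gb_le (h : r.Pos) : r.gb ≤ 40 * r.th * r.Gl * r.pb + 10 * r.th * r.κ := by
  have h1 := h.quo (40 * r.th)
  have h2 : (r.ε + r.τ) * (r.D * r.W) ≤ r.κ := Nat.mul_le_mul_left _ h.D_le_θ
  have h3 := Nat.mul_le_mul_left (40 * r.th) h2
  have h4 := Nat.mul_le_mul_right (40 * r.th * r.Gl * r.cb * r.s0 * r.D / (r.sm * r.sm))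
    (Nat.mul_le_mul_left 4 h.Kb)
  change 40 * r.th * r.Gl * r.pb + 40 * r.th * r.Gl * r.cb * r.s0 * r.D / (r.sm * r.sm) ≤ _
  have h5 : 40 * r.th * r.κ = 4 * (10 * r.th * r.κ) := by ring
  omega

section bounds

variable {Y : ℕ}

theorem mul_pow_le {a b i j : ℕ} (ha : a ≤ Y ^ i) (hb : b ≤ Y ^ j) : a * b ≤ Y ^ (i + j) := by
  rw [pow_add]; exact Nat.mul_le_mul ha hb

theorem mul_le1 {a b i : ℕ} (ha : a ≤ Y ^ i) (hb : b ≤ Y) : a * b ≤ Y ^ (i + 1) := by
  rw [pow_succ]; exact Nat.mul_le_mul ha hb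

theorem Le.c (h : r.Le Y) {c : ℕ} (hc : c ≤ 16000) : c ≤ Y ^ 1 := by
  rw [pow_one]; exact hc.trans h.big
theorem Le.up (h : r.Le Y) {a i j : ℕ} (ha : a ≤ Y ^ i) (hij : i ≤ j) : a ≤ Y ^ j :=
  ha.trans (Nat.pow_le_pow_right (by have := h.big; omega) hij)
theorem Le.sm (h : r.Le Y) : r.sm ≤ Y ^ 5 :=
  mul_le1 (mul_le1 (mul_le1 (mul_le1 (h.c le_rfl) h.th) h.Kb) h.cb) h.F
theorem Le.s0 (h : r.Le Y) : r.s0 ≤ Y ^ 6 := mul_le1 h.sm h.F
theorem Le.D (h : r.Le Y) : r.D ≤ Y ^ 7 := mul_le1 h.s0 h.Λ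
theorem Le.Mu (h : r.Le Y) : r.W * r.D ≤ Y ^ 8 := by rw [mul_comm]; exact mul_le1 h.D h.W
theorem Le.Gl (h : r.Le Y) : r.Gl ≤ Y ^ 4 :=
  mul_le1 (mul_le1 (mul_le1 (h.c (by norm_num)) h.th) h.ρ) h.W
theorem Le.Gg (h : r.Le Y) : 40 * r.th * r.Gl ≤ Y ^ 6 :=
  mul_pow_le (i := 2) (mul_le1 (h.c (by norm_num)) h.th) h.Gl
theorem Le.θ (h : r.Le Y) (p : r.Pos) : r.θ ≤ Y ^ 9 := mul_le1 (mul_le1 h.D h.W) (p.ψth.trans h.th)
theorem Le.κ (h : r.Le Y) (p : r.Pos) : r.κ ≤ Y ^ 10 := by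
  rw [Raw.κ, mul_comm]; exact mul_le1 (h.θ p) h.ρ
theorem Le.thr (h : r.Le Y) (p : r.Pos) : r.τ * r.θ ≤ Y ^ 10 :=
  (Nat.mul_le_mul_right _ (Nat.le_add_left _ _)).trans (h.κ p)
theorem Le.lb (h : r.Le Y) (p : r.Pos) : r.lb ≤ Y ^ 10 := p.lb_le.trans (h.κ p)
theorem Le.two (h : r.Le Y) {a b i : ℕ} (ha : a ≤ Y ^ i) (hb : b ≤ Y ^ i) : a + b ≤ Y ^ (i + 1) := by
  have h1 : 2 * Y ^ i ≤ Y * Y ^ i := Nat.mul_le_mul_right _ (by have := h.big; omega)
  rw [pow_succ']; omega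
theorem Le.gb (h : r.Le Y) (p : r.Pos) : r.gb ≤ Y ^ 13 :=
  p.gb_le.trans (h.two (i := 12) (h.up (mul_le1 h.Gg h.pb) (by norm_num))
    (mul_pow_le (i := 2) (mul_le1 (h.c (by norm_num)) h.th) (h.κ p)))

end bounds

end Raw

instance : Rp Raw :=
  Rp.via fun r => (r.th, r.ψ, r.ε, r.τ, r.Kb, r.W, r.cb, r.pb, r.F, r.Λ, r.fu)

/-- the program: stored parameters, `θ`, `κ`, bounds on lengths and gradients -/
def parR (r : Raw) : R (Pm × ℕ × ℕ × ℕ × ℕ) := do
  let sm ← nat (16000 * r.th * r.Kb * r.cb * (r.F + 1))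
  let s0 ← nat (sm * (r.F + 1))
  let D ← nat (s0 * r.Λ)
  let Gl ← nat (4000 * r.th * (r.ε + r.τ) * r.W)
  let Gg ← nat (40 * r.th * Gl)
  let θ ← nat (D * r.W * r.ψ)
  let κ ← nat ((r.ε + r.τ) * θ)
  let thr ← nat (r.τ * θ)
  let lb ← nat (Gl * r.cb * s0 * D / (sm * sm) + 3)
  let gb ← nat (Gg * r.pb + Gg * r.cb * s0 * D / (sm * sm))
  pure (⟨D, s0, Gg, Gl, thr, r.fu⟩, θ, κ, lb, gb)

theorem sp_parR {g : Gl} {r : Raw} {Y : ℕ} (p : r.Pos) (h : r.Le Y) (hX : Y ^ 13 ≤ g.X) :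
    Sp g (parR r) fun x t => x = (r.P, r.θ, r.κ, r.lb, r.gb) ∧ t = 0 := by
  simp only [parR, sp_bind, sp_nat, sp_pure]
  exact ⟨(h.up h.sm (by norm_num)).trans hX, (h.up h.s0 (by norm_num)).trans hX,
    (h.up h.D (by norm_num)).trans hX, (h.up h.Gl (by norm_num)).trans hX,
    (h.up h.Gg (by norm_num)).trans hX, (h.up (h.θ p) (by norm_num)).trans hX,
    (h.up (h.κ p) (by norm_num)).trans hX, (h.up (h.thr p) (by norm_num)).trans hX,
    (h.up (h.lb p) (by norm_num)).trans hX, (h.gb p).trans hX, rfl, trivial⟩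

@[fun_prop] theorem impl_parR {α : Type} [Rp α] {r : α → Raw} (hr : Pu true r) :
    Impl fun a => parR (r a) := by
  unfold parR; impl

end Crest.Agent.N325.Ip
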